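import Vale.Agent.P241.H71.Rho

/-! P241: the theorem of `Rho.lean` for characters with values in the `p`-th roots of unity. -/

set_option linter.all false

open Matrix

namespace Vale.Agent.P241.H71

/-- A nonabelian finite `p`-group has a unitary representation `ρ` of dimension `m` and a group of
more than `m` characters `χ` of order dividing `p` such that `χ ⊗ ρ` is conjugate to `ρ`. -/
theorem exists_rho_rootsOfUnity (p : ℕ) (hp : p.Prime) (V : Type*) [Group V] [Finite V]
    (hV : IsPGroup p V) (hna : ¬ ∀ a b : V, a * b = b * a) :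
    ∃ (m : ℕ) (ρ : V →* unitaryGroup (Fin m) ℂ) (X : Subgroup (V →* rootsOfUnity p ℂ)),
      0 < m ∧ m < Nat.card X ∧
      ∀ χ ∈ X, ∃ P : unitaryGroup (Fin m) ℂ, ∀ v,
        (P * ρ v * P⁻¹ : Matrix (Fin m) (Fin m) ℂ)
          = (((χ v : ℂˣ) : ℂ)) • (ρ v : Matrix (Fin m) (Fin m) ℂ) := by
  obtain ⟨X, m, ρ, hm, hmX, hXp, hT⟩ := exists_rho p hp V hV hna
  -- restriction of the codomain
  let F : (V →* rootsOfUnity p ℂ) →* (V →* ℂˣ) :=
    { toFun := fun χ => (rootsOfUnity p ℂ).subtype.comp χ
      map_one' := by ext; rfl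
      map_mul' := fun _ _ => by ext; rfl }
  have hFi : Function.Injective F := by
    intro χ ψ h
    ext v
    exact congrArg Units.val (DFunLike.congr_fun h v)
  have hXF : X ≤ F.range := by
    intro χ hχ
    refine ⟨{ toFun := fun v => ⟨χ v, ?_⟩, map_one' := ?_, map_mul' := ?_ }, ?_⟩
    · rw [mem_rootsOfUnity, ← MonoidHom.pow_apply, hXp χ hχ]
      rfl
    · apply Subtype.ext
      exact map_one χ
    · intro a b
      apply Subtype.ext
      exact map_mul χ a b
    · ext v
      rfl
  refine ⟨m, ρ, X.comap F, hm, ?_, ?_⟩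
  · have h1 : (X.comap F).map F = X := Subgroup.map_comap_eq_self hXF
    rw [Nat.card_congr ((X.comap F).equivMapOfInjective F hFi).toEquiv, h1]
    exact hmX
  · intro χ hχ
    obtain ⟨T, h⟩ := hT (F χ) hχ
    refine ⟨T, fun v => ?_⟩
    rw [h v, smul_mul_assoc]
    congr 1
    have h2 : (T : Matrix (Fin m) (Fin m) ℂ) * ((T⁻¹ : unitaryGroup (Fin m) ℂ) :
        Matrix (Fin m) (Fin m) ℂ) = 1 := by
      have := congrArg Subtype.val (mul_inv_cancel T)
      exact this
    rw [mul_assoc, h2, mul_one]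

end Vale.Agent.P241.H71
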