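import Vale.Agent.P251.X.LaxTh

/-!
# P241, block EX: lax monoidal homology theories (no commutativity)

* `LaxThA k T` : a homology theory with values in `k`-vector spaces with a lax monoidal structure;
* `LaxThA.Sph`, `LaxThA.Gra` : the sphere data and the gradings, as in P251/X/LaxTh.
-/

open CategoryTheory MonoidalCategory Limits Pretriangulated
open scoped TensorProduct

universe w v u

noncomputable section

namespace Vale.Agent.P241.EX

open Vale.Agent.P251.H Vale.Agent.P251.T Vale.Agent.P251.M Vale.Agent.P251.X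

set_option linter.unusedSectionVars false

variable (k : Type) [Field k] (T : Type u) [Category.{v} T] [Preadditive T] [HasZeroObject T]
  [HasShift T ℤ] [∀ n : ℤ, (shiftFunctor T n).Additive] [Pretriangulated T] [HasCoproducts.{0} T]
  [MonoidalCategory T] [SymmetricCategory T]

/-- A homology theory with a lax monoidal structure. -/
structure LaxThA extends HomTh.{w} k T where
  /-- the external product -/
  m (X Y : T) : V X →ₗ[k] V Y →ₗ[k] V (X ⊗ Y)
  /-- the unit -/
  e : V (𝟙_ T)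
  m_nat {X X' Y Y' : T} (f : X ⟶ X') (g : Y ⟶ Y') (x : V X) (y : V Y) :
    map (f ⊗ₘ g) (m X Y x y) = m X' Y' (map f x) (map g y)
  m_assoc (X Y Z : T) (x : V X) (y : V Y) (z : V Z) :
    map (α_ X Y Z).hom (m (X ⊗ Y) Z (m X Y x y) z) = m X (Y ⊗ Z) x (m Y Z y z)
  m_unit (X : T) (x : V X) : map (λ_ X).hom (m (𝟙_ T) X e x) = x
  m_unit_right (X : T) (x : V X) : map (ρ_ X).hom (m X (𝟙_ T) x e) = x

variable {k T}

/-- The values of a lax theory on the spheres. -/
structure LaxThA.Sph (F : LaxThA.{w} k T) (E : EvenSpheres T) where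
  /-- the generators -/
  g (j : ℤ) : F.V (E.S j)
  g_zero : F.map E.zero.inv (g 0) = F.e
  g_mul (i j l : ℤ) (h : i + j = l) :
    F.map (E.mu i j l h).hom (F.m (E.S i) (E.S j) (g i) (g j)) = g l
  one (x : F.V (𝟙_ T)) : ∃ c : k, x = c • F.e
  ne : F.e ≠ 0
  odd (l : ℤ) (x : F.V ((𝟙_ T)⟦(2 * l + 1 : ℤ)⟧)) : x = 0

/-- A grading of a lax theory, with the projector to the degree `0`. -/
structure LaxThA.Gra (F : LaxThA.{w} k T) (G : Type) [AddCommGroup G] where
  /-- the elements of degree `i` -/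
  H (i : G) (X : T) : Submodule k (F.V X)
  span (X : T) : ⨆ i, H i X = ⊤
  map {i : G} {X Y : T} (f : X ⟶ Y) {x : F.V X} (hx : x ∈ H i X) : F.map f x ∈ H i Y
  mul {i j : G} {X Y : T} {x : F.V X} {y : F.V Y} (hx : x ∈ H i X) (hy : y ∈ H j Y) :
    F.m X Y x y ∈ H (i + j) (X ⊗ Y)
  e : F.e ∈ H 0 (𝟙_ T)
  /-- the projector -/
  pr (X : T) : F.V X →ₗ[k] F.V X
  pr_zero {X : T} {x : F.V X} (hx : x ∈ H 0 X) : pr X x = x
  pr_ne {X : T} {i : G} (hi : i ≠ 0) {x : F.V X} (hx : x ∈ H i X) : pr X x = 0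

end Vale.Agent.P241.EX
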