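import Vale.Agent.P241.H71.VPhi
import Vale.Agent.P241.H71.LaxA
import Vale.Agent.P251.X.VGraPre

/-!
# P241, block EX: `V_tot` is a lax monoidal homology theory (`P` noncommutative)

`P` a monoid whose homotopy classes are central (`CenH E P`), `c` an exact point.

* `VtotLaxA hcen c hc : LaxThA (ZMod p) T`;
* `VtotSphA hcen c hc hP : (VtotLaxA hcen c hc).Sph (stdEven T)`;
* `VtotGraA hcen c hc : (VtotLaxA hcen c hc).Gra (ZMod N)`.
-/

open CategoryTheory MonoidalCategory Limits Pretriangulated MonObj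

set_option linter.unusedSectionVars false

universe v u

noncomputable section

namespace Vale.Agent.P241.EX

open Vale.Agent.P251.T Vale.Agent.P251.M Vale.Agent.P251.M.EvenSpheres Vale.Agent.P251.S
  Vale.Agent.P251.X

section basic

variable {T : Type u} [Category.{v} T] [Preadditive T] [MonoidalCategory T]
  [MonoidalPreadditive T] [SymmetricCategory T] {E : EvenSpheres T} {P : T} [MonObj P]
  {p N : ℕ} (hcen : CenH E P) (c : Pt E P p N)

namespace VtotA

variable {c}

include hcen in
theorem cross_mem_right {X Y : T} (x : MP E P X) {y : MP E P Y}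
    (hy : y ∈ c.I • (⊤ : Submodule (HRing E P) (MP E P Y))) :
    MP.cross E P X Y x y ∈ c.I • (⊤ : Submodule (HRing E P) (MP E P (X ⊗ Y))) := by
  induction hy using Submodule.smul_induction_on' with
  | smul z hz y _ =>
    rw [cross_smul_right_cen hcen]
    exact Submodule.smul_mem_smul hz trivial
  | add y _ y' _ hy hy' =>
    rw [map_add]
    exact Submodule.add_mem _ hy hy'

theorem cross_mem_left {X Y : T} {x : MP E P X} (y : MP E P Y)
    (hx : x ∈ c.I • (⊤ : Submodule (HRing E P) (MP E P X))) :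
    MP.cross E P X Y x y ∈ c.I • (⊤ : Submodule (HRing E P) (MP E P (X ⊗ Y))) := by
  induction hx using Submodule.smul_induction_on' with
  | smul z hz x _ =>
    rw [MP.cross_smul_left]
    exact Submodule.smul_mem_smul hz trivial
  | add x _ x' _ hx hx' =>
    rw [map_add, AddMonoidHom.add_apply]
    exact Submodule.add_mem _ hx hx'

variable (c) in
/-- The product with the class of `x`. -/
def prod₁ (X Y : T) (x : MP E P X) : Vtot c Y →ₗ[ZMod p] Vtot c (X ⊗ Y) :=
  AddMonoidHom.toZModLinearMap p (Vtot.desc ((Vtot.mk c (X ⊗ Y)).comp (MP.cross E P X Y x))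
    fun _ hy => Vtot.mk_eq_zero.2 (cross_mem_right hcen x hy))

theorem prod₁_mk (X Y : T) (x : MP E P X) (y : MP E P Y) :
    prod₁ hcen c X Y x (Vtot.mk c Y y) = Vtot.mk c (X ⊗ Y) (MP.cross E P X Y x y) := rfl

variable (c) in
/-- **The external product on `V_tot`.** -/
def prod (X Y : T) : Vtot c X →ₗ[ZMod p] Vtot c Y →ₗ[ZMod p] Vtot c (X ⊗ Y) :=
  AddMonoidHom.toZModLinearMap p (Vtot.desc
    { toFun := prod₁ hcen c X Y
      map_zero' := by
        apply LinearMap.ext
        intro y
        induction y using Vtot.ind with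
        | h y =>
          rw [prod₁_mk, map_zero, AddMonoidHom.zero_apply, map_zero]
          rfl
      map_add' := fun x x' => by
        apply LinearMap.ext
        intro y
        induction y using Vtot.ind with
        | h y =>
          rw [LinearMap.add_apply, prod₁_mk, prod₁_mk, prod₁_mk, _root_.map_add,
            AddMonoidHom.add_apply, _root_.map_add] }
    fun x hx => by
      apply LinearMap.ext
      intro y
      induction y using Vtot.ind with
      | h y => exact Vtot.mk_eq_zero.2 (cross_mem_left y hx))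

@[simp] theorem prod_mk (X Y : T) (x : MP E P X) (y : MP E P Y) :
    prod hcen c X Y (Vtot.mk c X x) (Vtot.mk c Y y) =
      Vtot.mk c (X ⊗ Y) (MP.cross E P X Y x y) := rfl

theorem map_prod {X X' Y Y' : T} (f : X ⟶ X') (g : Y ⟶ Y') (x : Vtot c X) (y : Vtot c Y) :
    Vtot.map c (f ⊗ₘ g) (prod hcen c X Y x y) =
      prod hcen c X' Y' (Vtot.map c f x) (Vtot.map c g y) := by
  induction x using Vtot.ind with
  | h x =>
    induction y using Vtot.ind with
    | h y => rw [prod_mk, Vtot.map_mk, Vtot.map_mk, Vtot.map_mk, prod_mk, MP.map_cross]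

theorem prod_assoc (X Y Z : T) (x : Vtot c X) (y : Vtot c Y) (z : Vtot c Z) :
    Vtot.map c (α_ X Y Z).hom (prod hcen c (X ⊗ Y) Z (prod hcen c X Y x y) z) =
      prod hcen c X (Y ⊗ Z) x (prod hcen c Y Z y z) := by
  induction x using Vtot.ind with
  | h x =>
    induction y using Vtot.ind with
    | h y =>
      induction z using Vtot.ind with
      | h z => rw [prod_mk, prod_mk, Vtot.map_mk, prod_mk, prod_mk, MP.cross_assoc]

variable (c) in
/-- The unit of `V_tot`. -/
def one : Vtot c (𝟙_ T) := Vtot.mk c (𝟙_ T) (MP.one E P)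

theorem one_prod (X : T) (x : Vtot c X) :
    Vtot.map c (λ_ X).hom (prod hcen c (𝟙_ T) X (one c) x) = x := by
  induction x using Vtot.ind with
  | h x => rw [one, prod_mk, Vtot.map_mk, MP.one_cross]

theorem prod_one (X : T) (x : Vtot c X) :
    Vtot.map c (ρ_ X).hom (prod hcen c X (𝟙_ T) x (one c)) = x := by
  induction x using Vtot.ind with
  | h x => rw [one, prod_mk, Vtot.map_mk, MP.cross_one]

end VtotA

/-! ### The periodic projections, for a noncommutative ring -/

theorem map_prCA {B : Type*} [CommRing B] (χ : HRing E P →+* B)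
    (N : ℕ) (hχ : ∀ (j : ℤ) (a : E.S j ⟶ P), ¬ (N : ℤ) ∣ j → χ (HRing.of E P j a) = 0) (d : ℤ)
    (z : HRing E P) : χ (prC N d P z) = if (N : ℤ) ∣ d then χ z else 0 := by
  induction z using DirectSum.induction_on with
  | zero => simp only [map_zero, ite_self]
  | of j a =>
    rw [prC_of]
    by_cases hj : (N : ℤ) ∣ j
    · have e : (N : ℤ) ∣ j - d ↔ (N : ℤ) ∣ d := by
        constructor
        · intro h
          have := dvd_sub hj h
          rwa [sub_sub_cancel] at this
        · intro h
          exact dvd_sub hj h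
      simp only [e]
      split_ifs
      · rfl
      · exact map_zero _
    · rw [hχ j a hj, ite_self]
      split_ifs
      · exact hχ j a hj
      · exact map_zero _
  | add z z' hz hz' =>
    rw [map_add, map_add, hz, hz']
    split_ifs
    · rw [map_add]
    · rw [add_zero]

/-- The projections preserve `ker χ • M`. -/
theorem prC_memA {X : T} (M : ModStr P X) {B : Type*} [CommRing B] (χ : HRing E P →+* B)
    (N : ℕ) (hχ : ∀ (j : ℤ) (a : E.S j ⟶ P), ¬ (N : ℤ) ∣ j → χ (HRing.of E P j a) = 0) (d : ℤ)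
    (x : HMod E X) :
    letI := hModule (E := E) M
    x ∈ (RingHom.ker χ • ⊤ : Submodule (HRing E P) (HMod E X)) →
      prC N d X x ∈ (RingHom.ker χ • ⊤ : Submodule (HRing E P) (HMod E X)) := by
  let _ := hModule (E := E) M
  intro hx
  refine Submodule.smul_induction_on (p := fun x => prC N d X x ∈
    (RingHom.ker χ • ⊤ : Submodule (HRing E P) (HMod E X))) hx ?_ ?_
  · intro z hz y _
    induction y using DirectSum.induction_on with
    | zero =>
      have e : z • (0 : HMod E X) = 0 := smul_zero z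
      change prC N d X (z • (0 : HMod E X)) ∈ _
      rw [e, map_zero]
      exact Submodule.zero_mem _
    | of l y =>
      have e := prC_smul_of M N d z l y
      refine (congrArg (· ∈ (RingHom.ker χ • ⊤ : Submodule (HRing E P) (HMod E X))) e).mpr ?_
      refine Submodule.smul_mem_smul (RingHom.mem_ker.2 ?_) Submodule.mem_top
      have h1 := map_prCA χ N hχ (d - l) z
      rw [RingHom.mem_ker.1 hz, ite_self] at h1
      exact h1
    | add y y' h h' =>
      have e : z • (y + y' : HMod E X) = z • y + z • y' := smul_add z y y'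
      change prC N d X (z • (y + y' : HMod E X)) ∈ _
      rw [e, map_add]
      exact Submodule.add_mem _ (h Submodule.mem_top) (h' Submodule.mem_top)
  · intro x y hx hy
    rw [map_add]
    exact Submodule.add_mem _ hx hy

theorem MPprC_memA (c : Pt E P p N) (a : ℤ) {W : T} (x : MP E P W)
    (hx : x ∈ c.I • (⊤ : Submodule (HRing E P) (MP E P W))) :
    MP.prC N a W x ∈ c.I • (⊤ : Submodule (HRing E P) (MP E P W)) :=
  prC_memA (ModStr.free P W) c.χ N (fun j z hj => c.χ_of j hj z) a x hx

namespace VtotA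

/-- The projector to the degrees divisible by `N`. -/
def pr (X : T) : Vtot c X →ₗ[ZMod p] Vtot c X :=
  AddMonoidHom.toZModLinearMap p
    (Vtot.desc ((Vtot.mk c X).comp (MP.prC N 0 X)) fun x hx => by
      rw [AddMonoidHom.comp_apply, Vtot.mk_eq_zero]
      exact MPprC_memA c 0 x hx)

variable {c}

@[simp] theorem pr_mk (X : T) (x : MP E P X) :
    pr c X (Vtot.mk c X x) = Vtot.mk c X (MP.prC N 0 X x) := rfl

theorem pr_of_mem_zero {X : T} {x : Vtot c X} (hx : x ∈ Vtot.H c 0 X) : pr c X x = x := by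
  refine Vtot.H_induction (motive := fun x => pr c X x = x) hx ?_ ?_ ?_ ?_
  · intro d x hd
    rw [pr_mk, MP.prC_of_dvd]
    rw [sub_zero]
    exact (ZMod.intCast_zmod_eq_zero_iff_dvd d N).1 hd
  · rw [map_zero]
  · intro y y' h h'
    rw [_root_.map_add, h, h']
  · intro a y h
    rw [map_smul, h]

theorem pr_of_mem_ne {X : T} {i : ZMod N} (hi : i ≠ 0) {x : Vtot c X} (hx : x ∈ Vtot.H c i X) :
    pr c X x = 0 := by
  refine Vtot.H_induction (motive := fun x => pr c X x = 0) hx ?_ ?_ ?_ ?_
  · intro d x hd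
    rw [pr_mk, MP.prC_of_not, map_zero]
    rw [sub_zero]
    intro h
    exact hi (hd.symm.trans ((ZMod.intCast_zmod_eq_zero_iff_dvd d N).2 h))
  · rw [map_zero]
  · intro y y' h h'
    rw [_root_.map_add, h, h', add_zero]
  · intro a y h
    rw [map_smul, h, smul_zero]

end VtotA

end basic

section theory

variable {T : Type u} [Category.{v} T] [Preadditive T] [HasZeroObject T]
    [HasShift T ℤ] [∀ n : ℤ, (shiftFunctor T n).Additive] [Pretriangulated T] [IsTriangulated T]
    [MonoidalCategory T] [SymmetricCategory T] [TensorTriangulated T] [MonoidalClosed T]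
    [HasCoproducts.{0} T] [HasProducts.{0} T] [StableCat T]
  {P : T} [MonObj P] {p N : ℕ} [Fact p.Prime] (hcen : CenH (stdEven T) P)
  (c : Pt (stdEven T) P p N)

/-- **`V_tot` as a lax monoidal homology theory.** -/
def VtotLaxA (hc : c.Exact) : LaxThA.{v} (ZMod p) T where
  toHomTh := c.totTh hc isSphere_std
  m X Y := VtotA.prod hcen c X Y
  e := VtotA.one c
  m_nat f g x y := VtotA.map_prod hcen f g x y
  m_assoc X Y Z x y z := VtotA.prod_assoc hcen X Y Z x y z
  m_unit X x := VtotA.one_prod hcen X x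
  m_unit_right X x := VtotA.prod_one hcen X x

theorem VtotA.one_ne_zero : VtotA.one c ≠ 0 := by
  intro h
  have h1 := phiA_one c (𝟙 P)
  have h2 : Vtot.mk c (𝟙_ T) (MP.one (stdEven T) P) = 0 := h
  rw [h2, map_zero, map_zero] at h1
  exact zero_ne_one h1

theorem VtotA.exists_smul_one (x : Vtot c (𝟙_ T)) : ∃ a : ZMod p, x = a • VtotA.one c := by
  induction x using Vtot.ind with
  | h x =>
    obtain ⟨z, rfl⟩ := MP.exists_smul_one x
    exact ⟨c.χ z, Vtot.mk_smul z _⟩

theorem VtotA.eq_zero_sphere (hP : Odd0 P) {k : ℤ} (hk : Odd k) (x : Vtot c ((𝟙_ T)⟦k⟧)) :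
    x = 0 := by
  refine Vtot.eq_zero_of_hom c (fun j f => ?_) x
  have h := Vtot.eq_zero_even_odd hP j k hk (f ≫ (tensorSph k P).hom)
  rwa [← cancel_mono ((tensorSph k P).hom), zero_comp]

/-- **The values of `V_tot` on the spheres.** -/
def VtotSphA (hc : c.Exact) (hP : Odd0 P) : (VtotLaxA hcen c hc).Sph (stdEven T) where
  g j := Vtot.mk c _ (MP.gen (stdEven T) P j)
  g_zero := by
    change Vtot.map c _ (Vtot.mk c _ (MP.gen (stdEven T) P 0)) = _
    rw [Vtot.map_mk, MP.map_zero_inv_gen]
    rfl
  g_mul i j l h := by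
    change Vtot.map c _ (VtotA.prod hcen c _ _ (Vtot.mk c _ (MP.gen (stdEven T) P i))
      (Vtot.mk c _ (MP.gen (stdEven T) P j))) = _
    rw [VtotA.prod_mk, Vtot.map_mk, MP.map_mu_gen]
  one x := VtotA.exists_smul_one c x
  ne := VtotA.one_ne_zero c
  odd l x := VtotA.eq_zero_sphere c hP ⟨l, rfl⟩ x

/-- **The grading of `V_tot`.** -/
def VtotGraA (hc : c.Exact) : (VtotLaxA hcen c hc).Gra (ZMod N) where
  H i X := Vtot.H c i X
  span X := Vtot.iSup_H X
  map f _ hx := Vtot.map_mem_H f hx
  mul {_ _ X Y _ _} hx hy := Vtot.mk_cross_mem (VtotA.prod hcen c X Y) (fun _ _ => rfl) hx hy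
  e := Vtot.mk_one_mem
  pr X := VtotA.pr c X
  pr_zero {_ _} hx := VtotA.pr_of_mem_zero hx
  pr_ne {_ _} hi {_} hx := VtotA.pr_of_mem_ne hi hx

variable (hc : c.Exact)

theorem VtotGraA_gen (hP : Odd0 P) (j : ℤ) :
    (VtotSphA hcen c hc hP).g j ∈ (VtotGraA hcen c hc).H (j : ZMod N) ((stdEven T).S j) :=
  Vtot.mk_gen_mem j

/-- The functional `phiA` sees only the degree `0` part. -/
theorem phiA_VtotGraA_pr {R : T} (u : R ⟶ P) (x : (VtotLaxA hcen c hc).V R) :
    phiA c u ((VtotGraA hcen c hc).pr R x) = phiA c u x := by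
  obtain ⟨x, rfl⟩ := Vtot.mk_surjective (c := c) x
  exact phiA₀_prC c u x

end theory

end Vale.Agent.P241.EX
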