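import Vale.Agent.P251.X.CrossM

/-!
# P241, block EX: the external product on `MP E P` for a noncommutative `P`

`Cen z` : `z : S ⟶ P` is central; `CenH E P` : the homotopy classes of `P` are central.
`cross_smul_right` : the external product is bilinear over `HRing E P` if `CenH E P`.
-/

open CategoryTheory MonoidalCategory Limits MonObj

set_option linter.unusedSectionVars false

universe v u

noncomputable section

namespace Vale.Agent.P241.EX

open Vale.Agent.P251.M Vale.Agent.P251.M.EvenSpheres Vale.Agent.P251.S Vale.Agent.P251.X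

variable {T : Type u} [Category.{v} T] [MonoidalCategory T] [SymmetricCategory T]

/-- `z : S ⟶ P` is central. -/
def Cen {S P : T} [MonObj P] (z : S ⟶ P) : Prop :=
  (β_ S P).hom ≫ P ◁ z ≫ μ[P] = z ▷ P ≫ μ[P]

theorem Cen.comp {S S' P : T} [MonObj P] {z : S ⟶ P} (hz : Cen z) (g : S' ⟶ S) : Cen (g ≫ z) := by
  unfold Cen at *
  rw [MonoidalCategory.whiskerLeft_comp, Category.assoc,
    ← BraidedCategory.braiding_naturality_left_assoc, hz, comp_whiskerRight, Category.assoc]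

theorem Cen.symm {S P : T} [MonObj P] {z : S ⟶ P} (hz : Cen z) :
    (β_ P S).hom ≫ z ▷ P ≫ μ[P] = P ◁ z ≫ μ[P] := by
  unfold Cen at hz
  rw [← hz, SymmetricCategory.symmetry_assoc]

theorem cen_of_comm {S P : T} [MonObj P] [IsCommMonObj P] (z : S ⟶ P) : Cen z := by
  unfold Cen
  rw [← BraidedCategory.braiding_naturality_left_assoc, IsCommMonObj.mul_comm]

/-- The homotopy classes of `P` are central. -/
def CenH (E : EvenSpheres T) (P : T) [MonObj P] : Prop :=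
  ∀ (j : ℤ) (a : E.S j ⟶ P), Cen a

variable {E : EvenSpheres T} {P : T} [MonObj P]

theorem cen_ten {S : T} {z : S ⟶ P} (hz : Cen z) (X : T) :
    (z ≫ (ρ_ P).inv) ▷ (P ⊗ X) ≫ (β_ (P ⊗ 𝟙_ T) (P ⊗ X)).hom ≫ FM.ten P X (𝟙_ T) ≫
      P ◁ (β_ X (𝟙_ T)).hom = (z ≫ (ρ_ P).inv) ▷ (P ⊗ X) ≫ FM.ten P (𝟙_ T) X := by
  have e1 : (β_ (P ⊗ 𝟙_ T) (P ⊗ X)).hom ≫ FM.ten P X (𝟙_ T) ≫ P ◁ (β_ X (𝟙_ T)).hom =
      tensorμ P (𝟙_ T) P X ≫ ((β_ P P).hom ≫ μ[P]) ▷ (𝟙_ T ⊗ X) := by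
    rw [FM.ten, Category.assoc, ← whisker_exchange, FM.braiding_tensorμ_assoc, tensorHom_def',
      Category.assoc, comp_whiskerRight]
    have e2 : (P ⊗ P) ◁ (β_ (𝟙_ T) X).hom ≫ (β_ P P).hom ▷ (X ⊗ 𝟙_ T) ≫
        (P ⊗ P) ◁ (β_ X (𝟙_ T)).hom ≫ μ[P] ▷ (𝟙_ T ⊗ X) =
        (β_ P P).hom ▷ (𝟙_ T ⊗ X) ≫ μ[P] ▷ (𝟙_ T ⊗ X) := by
      rw [whisker_exchange_assoc, ← MonoidalCategory.whiskerLeft_comp_assoc,
        SymmetricCategory.symmetry, MonoidalCategory.whiskerLeft_id, Category.id_comp]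
    rw [e2]
  have e3 : (z ≫ (ρ_ P).inv) ▷ (P ⊗ X) = (ρ_ S).inv ▷ (P ⊗ X) ≫ (z ▷ (𝟙_ T)) ▷ (P ⊗ X) := by
    rw [← comp_whiskerRight, rightUnitor_inv_naturality]
  have e4 : (z ▷ (𝟙_ T)) ▷ (P ⊗ X) ≫ tensorμ P (𝟙_ T) P X =
      tensorμ S (𝟙_ T) P X ≫ (z ▷ P) ▷ (𝟙_ T ⊗ X) := by
    have := tensorμ_natural z (𝟙 (𝟙_ T)) (𝟙 P) (𝟙 X)
    simpa using this
  have e5 : z ▷ P ≫ (β_ P P).hom ≫ μ[P] = z ▷ P ≫ μ[P] := by
    rw [BraidedCategory.braiding_naturality_left_assoc]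
    exact hz
  rw [e1, e3, Category.assoc, Category.assoc, reassoc_of% e4, ← comp_whiskerRight, e5, FM.ten,
    reassoc_of% e4, comp_whiskerRight]

theorem crossG_comm_cen {X : T} {m n q : ℤ} (h : m + n = q) (h' : n + m = q)
    {z : E.S m ⟶ P} (hz : Cen z) (a : E.S n ⟶ P ⊗ X) :
    crossG h' a (z ≫ (ρ_ P).inv) ≫ P ◁ (β_ X (𝟙_ T)).hom = crossG h (z ≫ (ρ_ P).inv) a := by
  unfold crossG
  have h1 : E.ext h (z ≫ (ρ_ P).inv) a = E.ext h (𝟙 (E.S m)) a ≫ (z ≫ (ρ_ P).inv) ▷ (P ⊗ X) := by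
    rw [← ext_comp_left, Category.id_comp]
  rw [← ext_comm h h' (z ≫ (ρ_ P).inv) a, h1, Category.assoc, Category.assoc, Category.assoc,
    Category.assoc, cen_ten hz]

theorem crossG_smul_right_cen {X Y : T} {m n p mn np q : ℤ} (h1 : m + n = mn)
    (h2 : p + mn = q) (h3 : p + n = np) (h4 : m + np = q) {z : E.S m ⟶ P} (hz : Cen z)
    (a : E.S p ⟶ P ⊗ X) (b : E.S n ⟶ P ⊗ Y) :
    crossG h2 a (gsmul (ModStr.free P Y) h1 z b) =
      gsmul (ModStr.free P (X ⊗ Y)) h4 z (crossG h3 a b) := by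
  have e1 := crossG_nat h2 a (crossG h1 (z ≫ (ρ_ P).inv) b) (𝟙 X) (λ_ Y).hom
  rw [whiskerLeft_id, Category.comp_id, ← gsmul_eq_crossG] at e1
  have h5 : p + m = p + m := rfl
  have h6 : p + m + n = q := by omega
  have e2 := crossG_assoc h5 h6 h1 h2 a (z ≫ (ρ_ P).inv) b
  have e3 := crossG_comm_cen (add_comm m p) h5 hz a
  have e4 := crossG_nat h6 (crossG h5 a (z ≫ (ρ_ P).inv)) b (β_ X (𝟙_ T)).hom (𝟙 Y)
  rw [whiskerLeft_id, Category.comp_id, e3] at e4
  have e5 := crossG_assoc (add_comm m p) h6 h3 h4 (z ≫ (ρ_ P).inv) a b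
  have e6 : (α_ X (𝟙_ T) Y).hom ≫ (𝟙 X ⊗ₘ (λ_ Y).hom) =
      ((β_ X (𝟙_ T)).hom ⊗ₘ 𝟙 Y) ≫ (α_ (𝟙_ T) X Y).hom ≫ (λ_ (X ⊗ Y)).hom := by
    rw [id_tensorHom, triangle, tensorHom_id, leftUnitor_tensor_hom, Iso.hom_inv_id_assoc,
      ← comp_whiskerRight, braiding_leftUnitor]
  rw [gsmul_eq_crossG h4, ← e5, ← e4, ← e1, ← e2, Category.assoc, Category.assoc, Category.assoc,
    ← MonoidalCategory.whiskerLeft_comp, ← MonoidalCategory.whiskerLeft_comp,
    ← MonoidalCategory.whiskerLeft_comp, e6]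

variable [Preadditive T] [MonoidalPreadditive T]

theorem cross_smul_right_cen (hcen : CenH E P) {X Y : T} (z : HRing E P) (x : MP E P X)
    (y : MP E P Y) : MP.cross E P X Y x (z • y) = z • MP.cross E P X Y x y := by
  induction z using DirectSum.induction_on with
  | zero => rw [zero_smul, zero_smul, map_zero]
  | of j z =>
    induction x, y using MP.ind₂ with
    | zl y => rw [map_zero, AddMonoidHom.zero_apply, AddMonoidHom.zero_apply, smul_zero]
    | zr x => rw [smul_zero, map_zero, smul_zero]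
    | oo m a n b =>
      change MP.cross E P X Y (MP.of E P X m a) (HRing.of E P j z • MP.of E P Y n b) =
        HRing.of E P j z • _
      rw [MP.smul_of (k := j + n) rfl, MP.cross_of (q := j + (m + n)) (by ring),
        MP.cross_of (q := m + n) rfl, MP.smul_of (k := j + (m + n)) rfl,
        crossG_smul_right_cen (np := m + n) rfl (by ring) rfl rfl (hcen j z)]
    | al x x' y h h' =>
      rw [map_add, AddMonoidHom.add_apply, AddMonoidHom.add_apply, h, h', smul_add]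
    | ar x y y' h h' => rw [smul_add, map_add, map_add, h, h', smul_add]
  | add z z' h h' => rw [add_smul, add_smul, map_add, h, h']

/-- the components of `HRing.map` -/
theorem HRing_map_apply {Q : T} [MonObj Q] (ι : Q ⟶ P) [IsMonHom ι] (x : HRing E Q) (j : ℤ) :
    (HRing.map (E := E) ι x) j = (show E.S j ⟶ Q from x j) ≫ ι := by
  induction x using DirectSum.induction_on with
  | zero =>
    rw [map_zero, DirectSum.zero_apply, DirectSum.zero_apply]
    exact zero_comp.symm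
  | of i a =>
    have h1 : HRing.map (E := E) ι (DirectSum.of (E.Gr Q) i a) =
        HRing.of E P i ((show E.S i ⟶ Q from a) ≫ ι) := HRing.map_of ι i a
    rw [h1]
    by_cases h : i = j
    · subst h
      rw [DirectSum.of_eq_same, DirectSum.of_eq_same]
    · rw [DirectSum.of_eq_of_ne _ _ _ (fun h' => h h'.symm),
        DirectSum.of_eq_of_ne _ _ _ (fun h' => h h'.symm)]
      exact zero_comp.symm
  | add x y hx hy =>
    rw [map_add, DirectSum.add_apply, DirectSum.add_apply, hx, hy]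
    exact (Preadditive.add_comp _ _ _ _ _ _).symm

theorem exists_comp_of_surj {Q : T} [MonObj Q] (ι : Q ⟶ P) [IsMonHom ι]
    (hs : Function.Surjective (HRing.map (E := E) ι)) {j : ℤ} (a : E.S j ⟶ P) :
    ∃ b : E.S j ⟶ Q, b ≫ ι = a := by
  obtain ⟨x, hx⟩ := hs (HRing.of E P j a)
  refine ⟨x j, ?_⟩
  have h1 := HRing_map_apply ι x j
  rw [hx, DirectSum.of_eq_same] at h1
  exact h1.symm

/-- The homotopy classes of `P` are central if they come from a central `ι : Q ⟶ P`. -/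
theorem CenH.of_surj {Q : T} [MonObj Q] (ι : Q ⟶ P) [IsMonHom ι] (hι : Cen ι)
    (hs : Function.Surjective (HRing.map (E := E) ι)) : CenH E P := by
  intro j a
  obtain ⟨b, rfl⟩ := exists_comp_of_surj ι hs a
  exact hι.comp b

end Vale.Agent.P241.EX
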