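import Vale.Agent.P241.H71.Rho

/-! P241: the monomial representation of `Rho.lean` has no stable line. -/

set_option linter.all false

open Matrix
open scoped commutatorElement

namespace Vale.Agent.P241.H71

variable {V : Type*} [Group V] {m : ℕ}

/-- If an element of the commutator subgroup acts by a scalar `≠ 1`, there is no stable line. -/
theorem no_line (U : V →* unitaryGroup (Fin m) ℂ) {z : V} (hz : z ∈ commutator V) {ζ : ℂ}
    (hζ : ζ ≠ 1) (hU : ∀ y : Fin m → ℂ, (U z : Matrix (Fin m) (Fin m) ℂ) *ᵥ y = ζ • y)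
    (y : Fin m → ℂ) (hy : y ≠ 0) :
    ∃ v : V, ∀ c : ℂ, (U v : Matrix (Fin m) (Fin m) ℂ) *ᵥ y ≠ c • y := by
  by_contra hcon
  push Not at hcon
  choose c hc using hcon
  have hmul : ∀ a b, c (a * b) = c a * c b := by
    intro a b
    have h1 : (U (a * b) : Matrix (Fin m) (Fin m) ℂ) *ᵥ y = (c a * c b) • y := by
      have h2 : (U (a * b) : Matrix (Fin m) (Fin m) ℂ)
          = (U a : Matrix (Fin m) (Fin m) ℂ) * (U b : Matrix (Fin m) (Fin m) ℂ) := by
        rw [map_mul]
        rfl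
      rw [h2, ← Matrix.mulVec_mulVec, hc b, Matrix.mulVec_smul, hc a, smul_smul, mul_comm]
    rw [hc] at h1
    exact smul_left_injective ℂ hy h1
  have hone : c 1 = 1 := by
    have h1 : (U 1 : Matrix (Fin m) (Fin m) ℂ) *ᵥ y = (1 : ℂ) • y := by
      rw [map_one, one_smul]
      exact Matrix.one_mulVec y
    rw [hc] at h1
    exact smul_left_injective ℂ hy h1
  let f : V →* ℂ := { toFun := c, map_one' := hone, map_mul' := hmul }
  have hker : commutator V ≤ f.toHomUnits.ker := by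
    rw [commutator_def, Subgroup.commutator_le]
    intro a _ b _
    rw [MonoidHom.mem_ker, map_commutatorElement]
    exact commutatorElement_eq_one_iff_mul_comm.2 (mul_comm _ _)
  have h1 : f.toHomUnits z = 1 := hker hz
  have h2 : c z = 1 := by
    have := congrArg Units.val h1
    exact this
  have h3 := hc z
  rw [hU, h2] at h3
  exact hζ (smul_left_injective ℂ hy h3)

/-- **Theorem.** Everything together: the monomial representation `ρ`, more than `m` characters
`χ` of exponent `p` with `χ ⊗ ρ ≅ ρ`, and no `V`-stable line. -/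
theorem exists_rho_no_line (p : ℕ) (hp : p.Prime) (V : Type*) [Group V] [Finite V]
    (hV : IsPGroup p V) (hna : ¬ ∀ a b : V, a * b = b * a) :
    ∃ (X : Subgroup (V →* ℂˣ)) (m : ℕ) (ρ : V →* unitaryGroup (Fin m) ℂ),
      0 < m ∧ m < Nat.card X ∧ (∀ χ ∈ X, χ ^ p = 1) ∧
      (∀ χ ∈ X, ∃ T : unitaryGroup (Fin m) ℂ, ∀ v,
        (T * ρ v : Matrix (Fin m) (Fin m) ℂ)
          = (χ v : ℂ) • (ρ v * T : Matrix (Fin m) (Fin m) ℂ)) ∧
      ∀ y : Fin m → ℂ, y ≠ 0 → ∃ v : V, ∀ c : ℂ,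
        (ρ v : Matrix (Fin m) (Fin m) ℂ) *ᵥ y ≠ c • y := by
  obtain ⟨X, m, ρ, hm, hmX, hXp, hT, z, hz, ζ, hζ, hz1, hz2⟩ := exists_monRep hp _ V rfl hV hna
  refine ⟨X, m, ρ.toUnitary, hm, hmX, hXp, fun χ hχ => ?_, ?_⟩
  · obtain ⟨T⟩ := hT χ hχ
    exact ⟨T.toUnitary, T.spec⟩
  · refine no_line ρ.toUnitary hz (ζ := (ζ : ℂ)) (fun h => hζ (Units.ext h)) ?_
    intro y
    have h1 : (ρ.toUnitary z : Matrix (Fin m) (Fin m) ℂ) = (ζ : ℂ) • 1 := by
      rw [MonRep.coe_toUnitary, hz1, ← mon_one]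
      ext i j
      rw [Matrix.smul_apply, mon_apply, mon_apply]
      by_cases h : i = (1 : Equiv.Perm (Fin m)) j
      · rw [if_pos h, if_pos h, hz2, smul_eq_mul, mul_one]
      · rw [if_neg h, if_neg h, smul_zero]
    rw [h1, Matrix.smul_mulVec, Matrix.one_mulVec]

end Vale.Agent.P241.H71
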