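import Mathlib

/-! P241, group theory of step (T3): a nonabelian finite `p`-group has a unitary monomial
representation `ρ` of dimension `m` and a group `X` of more than `m` characters of exponent `p`
with `χ ⊗ ρ ≅ ρ` for all `χ ∈ X`. -/

set_option linter.all false

open Matrix
open scoped commutatorElement

namespace Vale.Agent.P241.H71

/-! ### monomial matrices -/

section mon

variable {ι : Type*} [DecidableEq ι]

/-- the monomial matrix `e_j ↦ d (σ j) e_(σ j)` -/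
def mon (σ : Equiv.Perm ι) (d : ι → ℂ) : Matrix ι ι ℂ :=
  Matrix.of fun i j => if i = σ j then d i else 0

theorem mon_apply (σ : Equiv.Perm ι) (d : ι → ℂ) (i j : ι) :
    mon σ d i j = if i = σ j then d i else 0 := rfl

theorem mon_one : mon (1 : Equiv.Perm ι) (fun _ => 1) = 1 := by
  ext i j
  rw [mon_apply, Matrix.one_apply]
  rfl

theorem mon_conjTranspose (σ : Equiv.Perm ι) (d : ι → ℂ) :
    (mon σ d)ᴴ = mon σ⁻¹ (fun i => star (d (σ i))) := by
  ext i j
  rw [Matrix.conjTranspose_apply, mon_apply, mon_apply]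
  have : (i = σ⁻¹ j) ↔ (j = σ i) := by
    constructor
    · rintro rfl
      exact (Equiv.apply_symm_apply σ j).symm
    · rintro rfl
      exact (Equiv.symm_apply_apply σ i).symm
  by_cases h : j = σ i
  · rw [if_pos h, if_pos (this.2 h), h]
  · rw [if_neg h, if_neg (fun h' => h (this.1 h')), star_zero]

variable [Fintype ι]

theorem mon_mul (σ τ : Equiv.Perm ι) (d e : ι → ℂ) :
    mon σ d * mon τ e = mon (σ * τ) (fun i => d i * e (σ⁻¹ i)) := by
  ext i j
  rw [Matrix.mul_apply, mon_apply, Finset.sum_eq_single (τ j)]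
  · rw [mon_apply, mon_apply, if_pos rfl, Equiv.Perm.mul_apply]
    by_cases h : i = σ (τ j)
    · rw [if_pos h, if_pos h]
      have : σ⁻¹ i = τ j := by rw [h]; exact Equiv.symm_apply_apply σ (τ j)
      rw [this]
    · rw [if_neg h, if_neg h, zero_mul]
  · intro k _ hk
    rw [mon_apply, mon_apply, if_neg hk, mul_zero]
  · intro h
    exact absurd (Finset.mem_univ _) h

theorem mon_unitary (σ : Equiv.Perm ι) {d : ι → ℂ} (hd : ∀ i, ‖d i‖ = 1) :
    mon σ d ∈ unitaryGroup ι ℂ := by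
  rw [mem_unitaryGroup_iff, star_eq_conjTranspose, mon_conjTranspose, mon_mul, mul_inv_cancel]
  have : (fun i => d i * star (d (σ (σ⁻¹ i)))) = fun _ => (1 : ℂ) := by
    funext i
    have e1 : σ (σ⁻¹ i) = i := Equiv.apply_symm_apply σ i
    rw [e1]
    have h2 : d i * star (d i) = ((‖d i‖ ^ 2 : ℝ) : ℂ) := by
      rw [Complex.star_def, Complex.mul_conj, Complex.normSq_eq_norm_sq]
    rw [h2, hd i]
    norm_num
  rw [this, mon_one]

end mon

/-! ### data of a monomial representation -/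

/-- A monomial representation of dimension `m` with entries in `ℂˣ`. -/
structure MonRep (V : Type*) [Group V] (m : ℕ) where
  perm : V →* Equiv.Perm (Fin m)
  d : V → Fin m → ℂˣ
  d_mul : ∀ g h i, d (g * h) i = d g i * d h ((perm g)⁻¹ i)
  norm_d : ∀ g i, ‖(d g i : ℂ)‖ = 1

/-- `χ ⊗ ρ ≅ ρ` through a monomial matrix. -/
structure MonRep.Twist {V : Type*} [Group V] {m : ℕ} (ρ : MonRep V m) (χ : V →* ℂˣ) where
  perm : Equiv.Perm (Fin m)
  t : Fin m → ℂˣ
  comm : ∀ g, perm * ρ.perm g = ρ.perm g * perm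
  t_mul : ∀ g i, t i * ρ.d g (perm⁻¹ i) = χ g * (ρ.d g i * t ((ρ.perm g)⁻¹ i))
  norm_t : ∀ i, ‖(t i : ℂ)‖ = 1

namespace MonRep

variable {V : Type*} [Group V] {m : ℕ} (ρ : MonRep V m)

theorem d_one (i : Fin m) : ρ.d 1 i = 1 := by
  have h := ρ.d_mul 1 1 i
  rw [mul_one, map_one, inv_one, Equiv.Perm.one_apply] at h
  exact (mul_eq_left.1 h.symm)

/-- the unitary representation -/
noncomputable def toUnitary : V →* unitaryGroup (Fin m) ℂ where
  toFun g := ⟨mon (ρ.perm g) (fun i => (ρ.d g i : ℂ)), mon_unitary _ (ρ.norm_d g)⟩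
  map_one' := by
    apply Subtype.ext
    show mon (ρ.perm 1) (fun i => (ρ.d 1 i : ℂ)) = 1
    rw [map_one, ← mon_one]
    congr 1
    funext i
    rw [ρ.d_one]
    rfl
  map_mul' g h := by
    apply Subtype.ext
    show mon (ρ.perm (g * h)) (fun i => (ρ.d (g * h) i : ℂ))
      = mon (ρ.perm g) (fun i => (ρ.d g i : ℂ)) * mon (ρ.perm h) (fun i => (ρ.d h i : ℂ))
    rw [mon_mul, map_mul]
    congr 1
    funext i
    rw [ρ.d_mul, Units.val_mul]

theorem coe_toUnitary (g : V) :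
    (ρ.toUnitary g : Matrix (Fin m) (Fin m) ℂ) = mon (ρ.perm g) (fun i => (ρ.d g i : ℂ)) := rfl

variable {ρ} {χ : V →* ℂˣ}

/-- the intertwining matrix -/
noncomputable def Twist.toUnitary (T : ρ.Twist χ) : unitaryGroup (Fin m) ℂ :=
  ⟨mon T.perm (fun i => (T.t i : ℂ)), mon_unitary _ T.norm_t⟩

theorem Twist.spec (T : ρ.Twist χ) (g : V) :
    (T.toUnitary * ρ.toUnitary g : Matrix (Fin m) (Fin m) ℂ)
      = (χ g : ℂ) • (ρ.toUnitary g * T.toUnitary : Matrix (Fin m) (Fin m) ℂ) := by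
  show mon T.perm (fun i => (T.t i : ℂ)) * mon (ρ.perm g) (fun i => (ρ.d g i : ℂ))
    = (χ g : ℂ) • (mon (ρ.perm g) (fun i => (ρ.d g i : ℂ)) * mon T.perm (fun i => (T.t i : ℂ)))
  rw [mon_mul, mon_mul, T.comm]
  ext i j
  rw [Matrix.smul_apply, mon_apply, mon_apply]
  by_cases h : i = (ρ.perm g * T.perm) j
  · rw [if_pos h, if_pos h, smul_eq_mul]
    have := congrArg (Units.val) (T.t_mul g i)
    simp only [Units.val_mul] at this
    exact this
  · rw [if_neg h, if_neg h, smul_zero]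

/-- pull back along a homomorphism -/
def comap {W : Type*} [Group W] (f : W →* V) (ρ : MonRep V m) : MonRep W m where
  perm := ρ.perm.comp f
  d g := ρ.d (f g)
  d_mul g h i := by
    rw [map_mul, ρ.d_mul]
    rfl
  norm_d g i := ρ.norm_d _ i

/-- pull back of an intertwiner -/
def Twist.comap {W : Type*} [Group W] (f : W →* V) (T : ρ.Twist χ) :
    (ρ.comap f).Twist (χ.comp f) where
  perm := T.perm
  t := T.t
  comm g := T.comm (f g)
  t_mul g i := T.t_mul (f g) i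
  norm_t := T.norm_t

end MonRep

/-! ### induction of a character from a normal subgroup -/

section ind

variable {Q : Type*} [Group Q] (A : Subgroup Q) [A.Normal] [Finite (Q ⧸ A)]

/-- a section of `Q → Q/A` -/
noncomputable def sec (c : Q ⧸ A) : Q := Quotient.out c

theorem mk_sec (c : Q ⧸ A) : (QuotientGroup.mk (sec A c) : Q ⧸ A) = c :=
  QuotientGroup.out_eq' c

theorem mem_of_mk_eq {a b : Q} (h : (QuotientGroup.mk a : Q ⧸ A) = QuotientGroup.mk b) :
    a⁻¹ * b ∈ A := QuotientGroup.eq.1 h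

/-- left translation of the cosets by `g` -/
noncomputable def lperm : Q →* Equiv.Perm (Q ⧸ A) where
  toFun g := Equiv.mulLeft (g : Q ⧸ A)
  map_one' := by
    ext c
    show (((1 : Q) : Q ⧸ A)) * c = c
    rw [QuotientGroup.mk_one, one_mul]
  map_mul' g h := by
    ext c
    show (((g * h : Q) : Q ⧸ A)) * c = (g : Q ⧸ A) * ((h : Q ⧸ A) * c)
    rw [QuotientGroup.mk_mul, mul_assoc]

theorem lperm_inv (g : Q) (c : Q ⧸ A) : (lperm A g)⁻¹ c = (g : Q ⧸ A)⁻¹ * c := rfl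

/-- existence of the induced representation, with its intertwiners -/
theorem exists_ind (lam : Q → ℂˣ) (hlam : ∀ a ∈ A, ∀ b ∈ A, lam (a * b) = lam a * lam b)
    (hnorm : ∀ q, ‖(lam q : ℂ)‖ = 1) (X : Set (Q →* ℂˣ))
    (hX : ∀ χ ∈ X, (∀ g, ‖(χ g : ℂ)‖ = 1) ∧ ∃ y : Q, ∀ a ∈ A, lam (y⁻¹ * a * y) = lam a * χ a) :
    ∃ ρ : MonRep Q (Nat.card (Q ⧸ A)), (∀ χ ∈ X, Nonempty (ρ.Twist χ)) ∧
      ∀ z ∈ A, z ∈ Subgroup.center Q → ρ.perm z = 1 ∧ ∀ i, ρ.d z i = lam z := by
  set e : (Q ⧸ A) ≃ Fin (Nat.card (Q ⧸ A)) := Finite.equivFin (Q ⧸ A) with he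
  -- the cocycle
  set D : Q → (Q ⧸ A) → ℂˣ := fun g c => lam ((sec A c)⁻¹ * g * sec A ((g : Q ⧸ A)⁻¹ * c)) with hD
  have hmem : ∀ (g : Q) (c : Q ⧸ A), (sec A c)⁻¹ * g * sec A ((g : Q ⧸ A)⁻¹ * c) ∈ A := by
    intro g c
    rw [mul_assoc]
    apply mem_of_mk_eq
    rw [QuotientGroup.mk_mul, mk_sec, mk_sec, mul_inv_cancel_left]
  have hDmul : ∀ g h c, D (g * h) c = D g c * D h ((g : Q ⧸ A)⁻¹ * c) := by
    intro g h c
    simp only [hD]
    rw [← hlam _ (hmem g c) _ (hmem h _)]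
    congr 1
    rw [QuotientGroup.mk_mul, _root_.mul_inv_rev, mul_assoc ((h : Q ⧸ A)⁻¹)]
    group
  let ρ : MonRep Q (Nat.card (Q ⧸ A)) :=
    { perm := (Equiv.permCongrHom e).toMonoidHom.comp (lperm A)
      d := fun g i => D g (e.symm i)
      d_mul := by
        intro g h i
        rw [hDmul]
        congr 2
        show _ = e.symm (e ((lperm A g)⁻¹ (e.symm i)))
        rw [Equiv.symm_apply_apply, lperm_inv]
      norm_d := fun g i => hnorm _ }
  have hρinv : ∀ g i, e.symm ((ρ.perm g)⁻¹ i) = (g : Q ⧸ A)⁻¹ * e.symm i := by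
    intro g i
    show e.symm (e ((lperm A g)⁻¹ (e.symm i))) = _
    rw [Equiv.symm_apply_apply, lperm_inv]
  refine ⟨ρ, fun χ hχ => ?_, fun z hz hzc => ?_⟩
  rotate_left
  · have h1 : (z : Q ⧸ A) = 1 := (QuotientGroup.eq_one_iff z).2 hz
    refine ⟨?_, fun i => ?_⟩
    · ext i
      show ((e (((z : Q ⧸ A)) * e.symm i) : Fin _) : ℕ) = (i : ℕ)
      rw [h1, one_mul, Equiv.apply_symm_apply]
    · show lam ((sec A (e.symm i))⁻¹ * z * sec A ((z : Q ⧸ A)⁻¹ * e.symm i)) = lam z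
      rw [h1, inv_one, one_mul, Subgroup.mem_center_iff.1 hzc, mul_assoc, inv_mul_cancel, mul_one]
  obtain ⟨hχn, y, hy⟩ := hX χ hχ
  -- the intertwiner
  set τ : Equiv.Perm (Q ⧸ A) := Equiv.mulRight ((y : Q ⧸ A)⁻¹) with hτ
  have hτinv : ∀ c, τ⁻¹ c = c * (y : Q ⧸ A) := by
    intro c
    show c * ((y : Q ⧸ A)⁻¹)⁻¹ = _
    rw [inv_inv]
  set t : (Q ⧸ A) → ℂˣ := fun c => χ (sec A c) * lam (y⁻¹ * (sec A c)⁻¹ * sec A (c * (y : Q ⧸ A)))
    with ht
  have hmemt : ∀ c : Q ⧸ A, y⁻¹ * (sec A c)⁻¹ * sec A (c * (y : Q ⧸ A)) ∈ A := by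
    intro c
    rw [← _root_.mul_inv_rev]
    apply mem_of_mk_eq
    rw [QuotientGroup.mk_mul, mk_sec, mk_sec]
  have key : ∀ (g : Q) (c : Q ⧸ A), t c * D g (c * (y : Q ⧸ A))
      = χ g * (D g c * t ((g : Q ⧸ A)⁻¹ * c)) := by
    intro g c
    simp only [ht, hD]
    set c₁ : Q ⧸ A := (g : Q ⧸ A)⁻¹ * c with hc₁
    have e1 : (g : Q ⧸ A)⁻¹ * (c * (y : Q ⧸ A)) = c₁ * (y : Q ⧸ A) := by rw [hc₁, mul_assoc]
    rw [e1]
    set a : Q := (sec A c)⁻¹ * g * sec A c₁ with ha
    set b : Q := y⁻¹ * (sec A c₁)⁻¹ * sec A (c₁ * (y : Q ⧸ A)) with hb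
    have haA : a ∈ A := hmem g c
    have hbA : b ∈ A := hmemt c₁
    have haY : y⁻¹ * a * y ∈ A := by
      have := (inferInstance : A.Normal).conj_mem a haA y⁻¹
      rwa [inv_inv] at this
    have h2 : (sec A (c * (y : Q ⧸ A)))⁻¹ * g * sec A (c₁ * (y : Q ⧸ A)) ∈ A := by
      have := hmem g (c * (y : Q ⧸ A))
      rwa [e1] at this
    have e2 : lam (y⁻¹ * (sec A c)⁻¹ * sec A (c * (y : Q ⧸ A)))
        * lam ((sec A (c * (y : Q ⧸ A)))⁻¹ * g * sec A (c₁ * (y : Q ⧸ A)))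
        = lam a * χ a * lam b := by
      rw [← hlam _ (hmemt c) _ h2, ← hy a haA, ← hlam _ haY _ hbA]
      congr 1
      rw [ha, hb]
      group
    have e3 : χ a = (χ (sec A c))⁻¹ * χ g * χ (sec A c₁) := by
      rw [ha, map_mul, map_mul, map_inv]
    calc χ (sec A c) * lam (y⁻¹ * (sec A c)⁻¹ * sec A (c * (y : Q ⧸ A)))
          * lam ((sec A (c * (y : Q ⧸ A)))⁻¹ * g * sec A (c₁ * (y : Q ⧸ A)))
        = χ (sec A c) * (lam (y⁻¹ * (sec A c)⁻¹ * sec A (c * (y : Q ⧸ A)))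
          * lam ((sec A (c * (y : Q ⧸ A)))⁻¹ * g * sec A (c₁ * (y : Q ⧸ A)))) := mul_assoc _ _ _
      _ = χ (sec A c) * (lam a * ((χ (sec A c))⁻¹ * χ g * χ (sec A c₁)) * lam b) := by
          rw [e2, e3]
      _ = χ g * (lam a * (χ (sec A c₁) * lam b)) := by
          have : χ (sec A c) * (χ (sec A c))⁻¹ = 1 := mul_inv_cancel _
          calc χ (sec A c) * (lam a * ((χ (sec A c))⁻¹ * χ g * χ (sec A c₁)) * lam b)
              = (χ (sec A c) * (χ (sec A c))⁻¹) * (χ g * (lam a * (χ (sec A c₁) * lam b))) := by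
                simp only [mul_comm, mul_left_comm, mul_assoc]
            _ = _ := by rw [this, one_mul]
  refine ⟨{ perm := (Equiv.permCongrHom e) τ
            t := fun i => t (e.symm i)
            comm := ?_
            t_mul := ?_
            norm_t := ?_ }⟩
  · intro g
    show (Equiv.permCongrHom e) τ * (Equiv.permCongrHom e) (lperm A g)
      = (Equiv.permCongrHom e) (lperm A g) * (Equiv.permCongrHom e) τ
    rw [← map_mul, ← map_mul]
    congr 1
    ext c
    show (g : Q ⧸ A) * c * (y : Q ⧸ A)⁻¹ = (g : Q ⧸ A) * (c * (y : Q ⧸ A)⁻¹)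
    rw [mul_assoc]
  · intro g i
    have h1 : e.symm (((Equiv.permCongrHom e) τ)⁻¹ i) = e.symm i * (y : Q ⧸ A) := by
      show e.symm (e (τ⁻¹ (e.symm i))) = _
      rw [Equiv.symm_apply_apply, hτinv]
    show t (e.symm i) * D g (e.symm (((Equiv.permCongrHom e) τ)⁻¹ i))
      = χ g * (D g (e.symm i) * t (e.symm ((ρ.perm g)⁻¹ i)))
    rw [h1, hρinv, key]
  · intro i
    show ‖((χ _ * lam _ : ℂˣ) : ℂ)‖ = 1
    rw [Units.val_mul, norm_mul, hχn, hnorm, one_mul]

end ind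

/-! ### the group theory -/

section core

variable {Q : Type*} [Group Q]

/-- commutators are central: they are multiplicative in the second variable -/
theorem comm_mul_right {x : Q} (hc : ∀ b : Q, ⁅x, b⁆ ∈ Subgroup.center Q) (a b : Q) :
    ⁅x, a * b⁆ = ⁅x, a⁆ * ⁅x, b⁆ := by
  have h1 : ⁅x, a * b⁆ = ⁅x, a⁆ * (a * ⁅x, b⁆ * a⁻¹) := by
    simp only [commutatorElement_def]
    group
  have h2 : a * ⁅x, b⁆ * a⁻¹ = ⁅x, b⁆ := by
    rw [Subgroup.mem_center_iff.1 (hc b) a, mul_inv_cancel_right]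
  rw [h1, h2]

/-- `y ↦ [x, y]` as a homomorphism -/
def commHom (x : Q) (hc : ∀ b : Q, ⁅x, b⁆ ∈ Subgroup.center Q) : Q →* Q where
  toFun y := ⁅x, y⁆
  map_one' := by simp
  map_mul' a b := comm_mul_right hc a b

theorem norm_of_pow_eq_one {u : ℂˣ} {n : ℕ} (hn : n ≠ 0) (h : u ^ n = 1) : ‖(u : ℂ)‖ = 1 := by
  have h1 : (u : ℂ) ^ n = 1 := by
    rw [← Units.val_pow_eq_pow_val, h, Units.val_one]
  have h2 : ‖(u : ℂ)‖ ^ n = 1 := by rw [← norm_pow, h1, norm_one]
  exact (pow_eq_one_iff_of_nonneg (norm_nonneg _) hn).1 h2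

/-- The minimal case: the commutator subgroup is generated by a central element of order `p`. -/
theorem core {p : ℕ} (hp : p.Prime) [Finite Q] {z : Q} (hz : z ∈ Subgroup.center Q)
    (hzp : orderOf z = p) (hcomm : ∀ a b : Q, ⁅a, b⁆ ∈ Subgroup.zpowers z)
    (hna : ∃ x : Q, x ∉ Subgroup.center Q) :
    ∃ (X : Subgroup (Q →* ℂˣ)) (m : ℕ) (ρ : MonRep Q m), 0 < m ∧ m < Nat.card X ∧
      (∀ χ ∈ X, χ ^ p = 1) ∧ (∀ χ ∈ X, Nonempty (ρ.Twist χ)) ∧
      ∃ ζ : ℂˣ, ζ ≠ 1 ∧ ρ.perm z = 1 ∧ ∀ i, ρ.d z i = ζ := by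
  haveI : Fact p.Prime := ⟨hp⟩
  obtain ⟨x, hx⟩ := hna
  set Z : Subgroup Q := Subgroup.center Q with hZ
  have hzZ : Subgroup.zpowers z ≤ Z := by
    rw [Subgroup.zpowers_le]
    exact hz
  have hcZ : ∀ a b : Q, ⁅a, b⁆ ∈ Z := fun a b => hzZ (hcomm a b)
  have hpow1 : ∀ c ∈ Subgroup.zpowers z, c ^ p = 1 := by
    rintro c ⟨k, rfl⟩
    show (z ^ k) ^ p = 1
    rw [← zpow_natCast, ← _root_.zpow_mul, mul_comm, _root_.zpow_mul, zpow_natCast, ← hzp,
      pow_orderOf_eq_one, _root_.one_zpow]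
  have hpZ : ∀ a : Q, a ^ p ∈ Z := by
    intro a
    rw [hZ, Subgroup.mem_center_iff]
    intro b
    have h1 : ⁅b, a ^ p⁆ = 1 := by
      have : ⁅b, a ^ p⁆ = (commHom b (hcZ b)) (a ^ p) := rfl
      rw [this, map_pow]
      exact hpow1 _ (hcomm b a)
    exact (commutatorElement_eq_one_iff_mul_comm.1 h1)
  -- the subgroup `A = ⟨Z, x⟩`
  set A : Subgroup Q := Subgroup.closure ((Z : Set Q) ∪ {x}) with hA
  have hZA : Z ≤ A := fun c hc => Subgroup.subset_closure (Or.inl hc)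
  have hxA : x ∈ A := Subgroup.subset_closure (Or.inr rfl)
  haveI hAn : A.Normal := by
    constructor
    intro a ha g
    have : g * a * g⁻¹ = ⁅g, a⁆ * a := by
      simp only [commutatorElement_def]
      group
    rw [this]
    exact A.mul_mem (hZA (hcZ g a)) ha
  have hcommA : ∀ a ∈ (Z : Set Q) ∪ {x}, ∀ b ∈ (Z : Set Q) ∪ {x}, a * b = b * a := by
    rintro a (ha | rfl) b (hb | hb)
    · exact (Subgroup.mem_center_iff.1 ha b).symm
    · exact (Subgroup.mem_center_iff.1 ha b).symm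
    · exact (Subgroup.mem_center_iff.1 hb _)
    · rw [Set.mem_singleton_iff.1 hb]
  letI cg : CommGroup A := Subgroup.closureCommGroupOfComm hcommA
  -- the character `λ`
  have hzA : z ∈ A := hZA hz
  have hz1 : z ≠ 1 := by
    intro h
    rw [h, orderOf_one] at hzp
    exact hp.one_lt.ne hzp
  have hz1' : (⟨z, hzA⟩ : A) ≠ 1 := fun h => hz1 (congrArg Subtype.val h)
  obtain ⟨lm, hlm⟩ :=
    CommGroup.exists_apply_ne_one_of_hasEnoughRootsOfUnity (G := A) (M := ℂ) hz1'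
  classical
  set lam : Q → ℂˣ := fun q => if h : q ∈ A then lm ⟨q, h⟩ else 1 with hlamdef
  have hlam1 : ∀ q (h : q ∈ A), lam q = lm ⟨q, h⟩ := fun q h => dif_pos h
  have hlam : ∀ a ∈ A, ∀ b ∈ A, lam (a * b) = lam a * lam b := by
    intro a ha b hb
    rw [hlam1 _ (A.mul_mem ha hb), hlam1 _ ha, hlam1 _ hb, ← map_mul]
    rfl
  have hlamone : lam 1 = 1 := by
    rw [hlam1 1 A.one_mem]
    exact map_one lm
  have hlampow : ∀ a ∈ A, ∀ n : ℕ, lam (a ^ n) = lam a ^ n := by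
    intro a ha n
    induction n with
    | zero => rw [pow_zero, pow_zero, hlamone]
    | succ n ih => rw [pow_succ, pow_succ, hlam _ (A.pow_mem ha n) _ ha, ih]
  have hnorm : ∀ q, ‖(lam q : ℂ)‖ = 1 := by
    intro q
    by_cases h : q ∈ A
    · apply norm_of_pow_eq_one (orderOf_pos q).ne'
      rw [← hlampow q h, pow_orderOf_eq_one, hlamone]
    · have : lam q = 1 := dif_neg h
      rw [this, Units.val_one, norm_one]
  -- the characters
  set X : Subgroup (Q →* ℂˣ) :=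
    { carrier := {χ | ∀ c ∈ Z, χ c = 1}
      mul_mem' := by
        intro a b ha hb c hc
        rw [MonoidHom.mul_apply, ha c hc, hb c hc, one_mul]
      one_mem' := fun c hc => rfl
      inv_mem' := by
        intro a ha c hc
        rw [MonoidHom.inv_apply, ha c hc, inv_one] } with hX
  have hXp : ∀ χ ∈ X, χ ^ p = 1 := by
    intro χ hχ
    ext a
    rw [MonoidHom.pow_apply, ← map_pow, hχ _ (hpZ a)]
    rfl
  -- `card X = card (Q/Z)`
  have hcardX : Nat.card X = Nat.card (Q ⧸ Z) := by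
    letI cq : CommGroup (Q ⧸ Z) :=
      { (inferInstance : Group (Q ⧸ Z)) with
        mul_comm := by
          intro a b
          induction a using QuotientGroup.induction_on with
          | _ a =>
            induction b using QuotientGroup.induction_on with
            | _ b =>
              rw [← QuotientGroup.mk_mul, ← QuotientGroup.mk_mul, QuotientGroup.eq]
              have : (a * b)⁻¹ * (b * a) = ⁅b⁻¹, a⁻¹⁆ := by
                simp only [commutatorElement_def]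
                group
              rw [this]
              exact hcZ _ _ }
    rw [← CommGroup.card_monoidHom_of_hasEnoughRootsOfUnity (G := Q ⧸ Z) (M := ℂ)]
    apply Nat.card_congr
    exact
      { toFun := fun χ => QuotientGroup.lift Z χ.1 (fun c hc => χ.2 c hc)
        invFun := fun ψ => ⟨ψ.comp (QuotientGroup.mk' Z), by
          intro c hc
          show ψ (QuotientGroup.mk c) = 1
          rw [(QuotientGroup.eq_one_iff c).2 hc, map_one]⟩
        left_inv := by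
          intro χ
          apply Subtype.ext
          ext a
          rfl
        right_inv := by
          intro ψ
          ext a
          rfl }
  -- `m < card X`
  have hmX : Nat.card (Q ⧸ A) < Nat.card X := by
    rw [hcardX]
    show A.index < Z.index
    have hlt : Z < A := lt_of_le_of_ne hZA (fun h => hx (by rw [h]; exact hxA))
    exact Subgroup.index_strictAnti hlt
  have hXX : ∀ χ ∈ (X : Set (Q →* ℂˣ)), (∀ g, ‖(χ g : ℂ)‖ = 1) ∧
      ∃ y : Q, ∀ a ∈ A, lam (y⁻¹ * a * y) = lam a * χ a := by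
    intro χ hχ
    refine ⟨fun g => ?_, ?_⟩
    · apply norm_of_pow_eq_one (orderOf_pos g).ne'
      rw [← map_pow, pow_orderOf_eq_one, map_one]
    -- the element `y₀` with `λ([x⁻¹, y₀⁻¹]) ≠ 1`
    have hxinv : ∃ b : Q, ⁅x⁻¹, b⁆ ≠ 1 := by
      by_contra hcon
      push Not at hcon
      apply hx
      have : x⁻¹ ∈ Z := by
        rw [hZ, Subgroup.mem_center_iff]
        intro b
        exact (commutatorElement_eq_one_iff_mul_comm.1 (hcon b)).symm
      exact (Subgroup.inv_mem_iff Z).1 this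
    obtain ⟨b, hb⟩ := hxinv
    have hinj : ∀ c ∈ Subgroup.zpowers z, lam c = 1 → c = 1 := by
      rintro c ⟨k, rfl⟩ hc
      have hc' : lam (z ^ k) = 1 := hc
      show z ^ k = 1
      have h1 : lm ⟨z, hzA⟩ ^ k = 1 := by
        rw [← map_zpow]
        rw [hlam1 _ (A.zpow_mem hzA k)] at hc'
        exact hc'
      have h2 : lm ⟨z, hzA⟩ ^ p = 1 := by
        rw [← map_pow]
        have : (⟨z, hzA⟩ : A) ^ p = 1 := by
          apply Subtype.ext
          show z ^ p = 1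
          rw [← hzp, pow_orderOf_eq_one]
        rw [this, map_one]
      have h3 : orderOf (lm ⟨z, hzA⟩) = p := orderOf_eq_prime h2 hlm
      have h4 : ((orderOf (lm ⟨z, hzA⟩) : ℕ) : ℤ) ∣ k := orderOf_dvd_iff_zpow_eq_one.2 h1
      rw [h3, ← hzp] at h4
      exact orderOf_dvd_iff_zpow_eq_one.1 h4
    set w : ℂˣ := lam ⁅x⁻¹, b⁆ with hw
    have hw1 : w ≠ 1 := fun h => hb (hinj _ (hcomm _ _) h)
    have hwp : w ^ p = 1 := by
      rw [hw, ← hlampow _ (hZA (hcZ _ _)), hpow1 _ (hcomm _ _), hlamone]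
    have hprim : IsPrimitiveRoot w p := by
      have := IsPrimitiveRoot.orderOf w
      rwa [orderOf_eq_prime hwp hw1] at this
    have hχx : (χ x) ^ p = 1 := by
      rw [← map_pow]
      exact hχ _ (hpZ x)
    haveI : NeZero p := ⟨hp.ne_zero⟩
    have hi0 : ∃ i < p, w ^ i = χ x := by
      have h1 : IsPrimitiveRoot (w : ℂ) p := IsPrimitiveRoot.coe_units_iff.2 hprim
      have h2 : ((χ x : ℂˣ) : ℂ) ^ p = 1 := by
        rw [← Units.val_pow_eq_pow_val, hχx, Units.val_one]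
      obtain ⟨i, hip, hi⟩ := h1.eq_pow_of_pow_eq_one h2
      refine ⟨i, hip, Units.ext ?_⟩
      rw [Units.val_pow_eq_pow_val]
      exact hi
    obtain ⟨i, _, hi⟩ := hi0
    refine ⟨(b ^ i)⁻¹, ?_⟩
    -- the two homomorphisms agree
    have hcent : ∀ a : Q, ((b ^ i)⁻¹)⁻¹ * a * (b ^ i)⁻¹ = a * ⁅a⁻¹, b ^ i⁆ := by
      intro a
      simp only [commutatorElement_def]
      group
    have hlc : ∀ a ∈ A, lam (((b ^ i)⁻¹)⁻¹ * a * (b ^ i)⁻¹) = lam a * lam ⁅a⁻¹, b ^ i⁆ := by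
      intro a ha
      rw [hcent, hlam _ ha _ (hZA (hcZ _ _))]
    intro a ha
    rw [hlc a ha]
    congr 1
    -- induction over the closure
    refine Subgroup.closure_induction (p := fun a _ => lam ⁅a⁻¹, b ^ i⁆ = χ a) ?_ ?_ ?_ ?_ ha
    · rintro a (ha | rfl)
      · have h1 : ⁅a⁻¹, b ^ i⁆ = 1 := by
          rw [commutatorElement_eq_one_iff_mul_comm]
          exact ((Subgroup.mem_center_iff.1 (Z.inv_mem ha)) (b ^ i)).symm
        rw [h1, hlamone, hχ a ha]
      · have h1 : ⁅a⁻¹, b ^ i⁆ = (commHom a⁻¹ (hcZ _)) (b ^ i) := rfl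
        have h5 : (commHom a⁻¹ (hcZ _)) b = ⁅a⁻¹, b⁆ := rfl
        rw [h1, map_pow, h5, hlampow _ (hZA (hcZ _ _))]
        exact hi
    · rw [inv_one, commutatorElement_one_left, hlamone, map_one]
    · intro a₁ a₂ _ _ h1 h2
      have h3 : ⁅(a₁ * a₂)⁻¹, b ^ i⁆ = ⁅a₂⁻¹, b ^ i⁆ * ⁅a₁⁻¹, b ^ i⁆ := by
        have e1 : ⁅(a₁ * a₂)⁻¹, b ^ i⁆ = (a₂⁻¹ * ⁅a₁⁻¹, b ^ i⁆ * a₂) * ⁅a₂⁻¹, b ^ i⁆ := by
          simp only [commutatorElement_def]
          group
        have e2 : a₂⁻¹ * ⁅a₁⁻¹, b ^ i⁆ * a₂ = ⁅a₁⁻¹, b ^ i⁆ := by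
          rw [Subgroup.mem_center_iff.1 (hcZ a₁⁻¹ (b ^ i)) a₂⁻¹, inv_mul_cancel_right]
        rw [e1, e2]
        exact (Subgroup.mem_center_iff.1 (hcZ a₁⁻¹ (b ^ i)) _).symm
      rw [h3, hlam _ (hZA (hcZ _ _)) _ (hZA (hcZ _ _)), h1, h2, map_mul, mul_comm]
    · intro a₁ _ h1
      have h3 : ⁅(a₁⁻¹)⁻¹, b ^ i⁆ * ⁅a₁⁻¹, b ^ i⁆ = 1 := by
        have e1 : ⁅a₁⁻¹, b ^ i⁆ = a₁⁻¹ * ⁅a₁, b ^ i⁆⁻¹ * a₁ := by
          simp only [commutatorElement_def]
          group
        have e2 : a₁⁻¹ * ⁅a₁, b ^ i⁆⁻¹ * a₁ = ⁅a₁, b ^ i⁆⁻¹ := by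
          rw [Subgroup.mem_center_iff.1 (Z.inv_mem (hcZ a₁ (b ^ i))) a₁⁻¹, inv_mul_cancel_right]
        rw [inv_inv, e1, e2, mul_inv_cancel]
      have h4 : lam ⁅(a₁⁻¹)⁻¹, b ^ i⁆ * lam ⁅a₁⁻¹, b ^ i⁆ = 1 := by
        rw [← hlam _ (hZA (hcZ _ _)) _ (hZA (hcZ _ _)), h3, hlamone]
      rw [map_inv, ← h1]
      exact eq_inv_of_mul_eq_one_left h4
  obtain ⟨ρ, hρ, hρz⟩ := exists_ind A lam hlam hnorm (X : Set (Q →* ℂˣ)) hXX
  refine ⟨X, Nat.card (Q ⧸ A), ρ, Nat.card_pos, hmX, hXp, hρ, lam z, ?_, (hρz z hzA hz).1,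
    (hρz z hzA hz).2⟩
  rw [hlam1 z hzA]
  exact hlm

/-- **Theorem.** A nonabelian finite `p`-group has a monomial unitary representation `ρ` of
dimension `m` and a group `X` of more than `m` characters of exponent `p` with `χ ⊗ ρ ≅ ρ`. -/
theorem exists_monRep {p : ℕ} (hp : p.Prime) : ∀ (n : ℕ) (V : Type*) [Group V] [Finite V],
    Nat.card V = n → IsPGroup p V → (¬ ∀ a b : V, a * b = b * a) →
    ∃ (X : Subgroup (V →* ℂˣ)) (m : ℕ) (ρ : MonRep V m), 0 < m ∧ m < Nat.card X ∧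
      (∀ χ ∈ X, χ ^ p = 1) ∧ (∀ χ ∈ X, Nonempty (ρ.Twist χ)) ∧
      ∃ z ∈ commutator V, ∃ ζ : ℂˣ, ζ ≠ 1 ∧ ρ.perm z = 1 ∧ ∀ i, ρ.d z i = ζ := by
  intro n
  induction n using Nat.strong_induction_on with
  | _ n ih =>
  intro V _ _ hcard hV hna
  haveI : Fact p.Prime := ⟨hp⟩
  by_cases h : ∃ K : Subgroup V, K.Normal ∧ K ≠ ⊥ ∧ ∃ a b : V, ⁅a, b⁆ ∉ K
  · -- a proper nonabelian quotient
    obtain ⟨K, hK, hKb, a, b, hab⟩ := h
    have hlt : Nat.card (V ⧸ K) < n := by
      rw [← hcard, K.card_eq_card_quotient_mul_card_subgroup]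
      have h1 : 1 < Nat.card K := by
        rw [Subgroup.one_lt_card_iff_ne_bot]
        exact hKb
      have h2 : 0 < Nat.card (V ⧸ K) := Nat.card_pos
      nlinarith
    have hna' : ¬ ∀ a b : V ⧸ K, a * b = b * a := by
      intro hc
      apply hab
      have h1 : ((⁅a, b⁆ : V) : V ⧸ K) = 1 := by
        rw [commutatorElement_def, QuotientGroup.mk_mul, QuotientGroup.mk_mul,
          QuotientGroup.mk_mul, QuotientGroup.mk_inv, QuotientGroup.mk_inv, hc (a : V ⧸ K) b,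
          mul_inv_cancel_right, mul_inv_cancel]
      exact (QuotientGroup.eq_one_iff _).1 h1
    obtain ⟨X, m, ρ, hm, hmX, hXp, hT, z, hzc, ζ, hζ, hz1, hz2⟩ :=
      ih _ hlt (V ⧸ K) rfl (hV.to_quotient K) hna'
    set π : V →* V ⧸ K := QuotientGroup.mk' K with hπ
    have hπs : Function.Surjective π := QuotientGroup.mk'_surjective K
    set F : ((V ⧸ K) →* ℂˣ) →* (V →* ℂˣ) :=
      { toFun := fun χ => χ.comp π
        map_one' := by ext; rfl
        map_mul' := fun _ _ => by ext; rfl } with hF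
    have hFi : Function.Injective F := by
      intro χ ψ hχψ
      ext v
      exact congrArg Units.val (DFunLike.congr_fun hχψ v)
    refine ⟨X.map F, m, ρ.comap π, hm, ?_, ?_, ?_, ?_⟩
    · rw [Nat.card_congr (X.equivMapOfInjective F hFi).symm.toEquiv]
      exact hmX
    · rintro _ ⟨χ, hχ, rfl⟩
      have h1 : F (χ ^ p) = (F χ) ^ p := map_pow F χ p
      rw [hXp χ hχ, map_one] at h1
      exact h1.symm
    · rintro _ ⟨χ, hχ, rfl⟩
      obtain ⟨T⟩ := hT χ hχ
      exact ⟨T.comap π⟩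
    · have h1 : (commutator V).map π = commutator (V ⧸ K) := by
        rw [commutator_def, commutator_def, Subgroup.map_commutator,
          ← MonoidHom.range_eq_map, MonoidHom.range_eq_top.2 hπs]
      rw [← h1] at hzc
      obtain ⟨z', hz', rfl⟩ := hzc
      exact ⟨z', hz', ζ, hζ, hz1, hz2⟩
  · -- all proper quotients are abelian
    push Not at h
    haveI : Nontrivial V := by
      by_contra hn
      rw [not_nontrivial_iff_subsingleton] at hn
      exact hna fun a b => Subsingleton.elim _ _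
    -- a central element of order `p`
    have hZ : Nontrivial (Subgroup.center V) := hV.center_nontrivial
    have hZp : IsPGroup p (Subgroup.center V) := hV.to_subgroup _
    obtain ⟨c, hc⟩ := exists_ne (1 : Subgroup.center V)
    have hdvd : p ∣ Nat.card (Subgroup.center V) := by
      obtain ⟨k, hk⟩ := (IsPGroup.iff_card).1 hZp
      rw [hk]
      apply dvd_pow_self
      rintro rfl
      rw [pow_zero] at hk
      have := (Nat.card_eq_one_iff_unique.1 hk).1
      exact hc (Subsingleton.elim _ _)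
    obtain ⟨z, hz⟩ := exists_prime_orderOf_dvd_card' p hdvd
    have hzp : orderOf (z : V) = p := by
      rw [Subgroup.orderOf_coe, hz]
    have hz1 : (z : V) ≠ 1 := by
      intro h0
      rw [h0, orderOf_one] at hzp
      exact hp.one_lt.ne hzp
    have hzn : (Subgroup.zpowers (z : V)).Normal := by
      constructor
      rintro _ ⟨k, rfl⟩ g
      have h1 : (z : V) ^ k ∈ Subgroup.center V := Subgroup.zpow_mem _ z.2 k
      have h2 : g * (z : V) ^ k * g⁻¹ = (z : V) ^ k := by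
        rw [Subgroup.mem_center_iff.1 h1 g, mul_inv_cancel_right]
      show g * (z : V) ^ k * g⁻¹ ∈ _
      rw [h2]
      exact ⟨k, rfl⟩
    have hcomm : ∀ a b : V, ⁅a, b⁆ ∈ Subgroup.zpowers (z : V) := by
      apply h _ hzn
      rw [Ne, Subgroup.zpowers_eq_bot]
      exact hz1
    have hcen : ∃ x : V, x ∉ Subgroup.center V := by
      by_contra hcon
      push Not at hcon
      exact hna fun a b => (Subgroup.mem_center_iff.1 (hcon b) a)
    obtain ⟨X, m, ρ, hm, hmX, hXp, hT, ζ, hζ, hz1', hz2'⟩ := core hp z.2 hzp hcomm hcen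
    refine ⟨X, m, ρ, hm, hmX, hXp, hT, z, ?_, ζ, hζ, hz1', hz2'⟩
    -- the commutator subgroup contains `z`
    have hcne : commutator V ≠ ⊥ := by
      intro hbot
      apply hna
      intro a b
      have : ⁅a, b⁆ ∈ commutator V := Subgroup.commutator_mem_commutator (Subgroup.mem_top a)
        (Subgroup.mem_top b)
      rw [hbot, Subgroup.mem_bot] at this
      exact commutatorElement_eq_one_iff_mul_comm.1 this
    have hle : commutator V ≤ Subgroup.zpowers (z : V) := by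
      rw [commutator_def, Subgroup.commutator_le]
      intro a _ b _
      exact hcomm a b
    have heq : commutator V = Subgroup.zpowers (z : V) := by
      have hcz : Nat.card (Subgroup.zpowers (z : V)) = p := by
        rw [Nat.card_zpowers, hzp]
      have hdv : Nat.card (commutator V) ∣ p := by
        rw [← hcz]
        exact Subgroup.card_dvd_of_le hle
      have h1 : Nat.card (commutator V) ≠ 1 := by
        rw [Ne, Subgroup.card_eq_one]
        exact hcne
      have h2 : Nat.card (commutator V) = p := ((Nat.dvd_prime hp).1 hdv).resolve_left h1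
      exact Subgroup.eq_of_le_of_card_ge hle (by rw [h2, hcz])
    rw [heq]
    exact Subgroup.mem_zpowers _

/-- **Theorem** (matrix form). -/
theorem exists_rho (p : ℕ) (hp : p.Prime) (V : Type*) [Group V] [Finite V] (hV : IsPGroup p V)
    (hna : ¬ ∀ a b : V, a * b = b * a) :
    ∃ (X : Subgroup (V →* ℂˣ)) (m : ℕ) (ρ : V →* unitaryGroup (Fin m) ℂ),
      0 < m ∧ m < Nat.card X ∧ (∀ χ ∈ X, χ ^ p = 1) ∧
      ∀ χ ∈ X, ∃ T : unitaryGroup (Fin m) ℂ, ∀ v,
        (T * ρ v : Matrix (Fin m) (Fin m) ℂ)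
          = (χ v : ℂ) • (ρ v * T : Matrix (Fin m) (Fin m) ℂ) := by
  obtain ⟨X, m, ρ, hm, hmX, hXp, hT, _⟩ := exists_monRep hp _ V rfl hV hna
  refine ⟨X, m, ρ.toUnitary, hm, hmX, hXp, fun χ hχ => ?_⟩
  obtain ⟨T⟩ := hT χ hχ
  exact ⟨T.toUnitary, T.spec⟩

end core

end Vale.Agent.P241.H71
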