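import Vale.Agent.P251.X.PhiTot
import Vale.Agent.P241.H71.VCross

/-!
# P241, block EX: the functional on `π_{2*}(P ⊗ R)` given by a point of `P` and a central
monoid map `R ⟶ P`; `P` noncommutative
-/

open CategoryTheory MonoidalCategory Limits Pretriangulated MonObj

set_option linter.unusedSectionVars false

universe v u

noncomputable section

namespace Vale.Agent.P241.EX

open Vale.Agent.P251.T Vale.Agent.P251.M Vale.Agent.P251.M.EvenSpheres Vale.Agent.P251.S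
  Vale.Agent.P251.X

section prod

variable {T : Type u} [Category.{v} T] [MonoidalCategory T] [SymmetricCategory T] {P : T}
  [MonObj P] {R : T}

theorem mul4 : (μ[P] ⊗ₘ μ[P]) ≫ μ[P] = (α_ P P (P ⊗ P)).hom ≫ P ◁ ((α_ P P P).inv ≫
    μ[P] ▷ P ≫ μ[P]) ≫ μ[P] := by
  have h1 : (α_ P P P).inv ≫ μ[P] ▷ P ≫ μ[P] = P ◁ μ[P] ≫ μ[P] := by
    rw [MonObj.mul_assoc, Iso.inv_hom_id_assoc]
  rw [h1, tensorHom_def', Category.assoc, MonoidalCategory.whiskerLeft_comp, Category.assoc,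
    ← associator_naturality_right_assoc, ← MonObj.mul_assoc]

/-- the product with `u` is compatible with the products of `P ⊗ R` and `P` -/
theorem ten_prodWith_cen [MonObj R] (u : R ⟶ P) [IsMonHom u] (hu : Cen u) :
    FM.ten P R R ≫ P ◁ μ[R] ≫ prodWith u = (prodWith u ⊗ₘ prodWith u) ≫ μ[P] := by
  have h1 : (P ◁ u ⊗ₘ P ◁ u) ≫ (μ[P] ⊗ₘ μ[P]) ≫ μ[P] =
      (α_ P R (P ⊗ R)).hom ≫ P ◁ ((α_ R P R).inv ≫ ((u ▷ P ≫ μ[P]) ⊗ₘ u) ≫ μ[P]) ≫ μ[P] := by
    rw [mul4]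
    have e1 : (P ◁ u ⊗ₘ P ◁ u) ≫ (α_ P P (P ⊗ P)).hom =
        (α_ P R (P ⊗ R)).hom ≫ P ◁ (u ⊗ₘ P ◁ u) := by
      rw [← id_tensorHom, associator_naturality, id_tensorHom, id_tensorHom]
    have e2 : (u ⊗ₘ P ◁ u) ≫ (α_ P P P).inv = (α_ R P R).inv ≫ ((u ▷ P) ⊗ₘ u) := by
      rw [← id_tensorHom, associator_inv_naturality, tensorHom_id]
    have e3 : ((u ▷ P ≫ μ[P]) ⊗ₘ u) = ((u ▷ P) ⊗ₘ u) ≫ μ[P] ▷ P := by
      rw [← tensorHom_id μ[P] P, tensorHom_comp_tensorHom, Category.comp_id]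
    rw [reassoc_of% e1, ← MonoidalCategory.whiskerLeft_comp_assoc, reassoc_of% e2, e3,
      Category.assoc]
  have h2 : tensorμ P R P R ≫ (μ[P] ⊗ₘ ((u ⊗ₘ u) ≫ μ[P])) ≫ μ[P] =
      (α_ P R (P ⊗ R)).hom ≫ P ◁ ((α_ R P R).inv ≫ (((β_ R P).hom ≫ P ◁ u ≫ μ[P]) ⊗ₘ u) ≫
        μ[P]) ≫ μ[P] := by
    have e0 : (μ[P] ⊗ₘ ((u ⊗ₘ u) ≫ μ[P])) = (P ⊗ P) ◁ (u ⊗ₘ u) ≫ (μ[P] ⊗ₘ μ[P]) := by
      rw [← id_tensorHom, tensorHom_comp_tensorHom, Category.id_comp]
    have e1 : (P ⊗ P) ◁ (u ⊗ₘ u) ≫ (α_ P P (P ⊗ P)).hom =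
        (α_ P P (R ⊗ R)).hom ≫ P ◁ P ◁ (u ⊗ₘ u) := by
      rw [associator_naturality_right]
    have e2 : P ◁ (u ⊗ₘ u) ≫ (α_ P P P).inv = (α_ P R R).inv ≫ ((P ◁ u) ⊗ₘ u) := by
      rw [← id_tensorHom, associator_inv_naturality, id_tensorHom]
    have e3 : (((β_ R P).hom ≫ P ◁ u ≫ μ[P]) ⊗ₘ u) =
        (β_ R P).hom ▷ R ≫ ((P ◁ u) ⊗ₘ u) ≫ μ[P] ▷ P := by
      rw [← tensorHom_id, ← tensorHom_id, tensorHom_comp_tensorHom, tensorHom_comp_tensorHom,
        Category.comp_id, Category.id_comp]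
    rw [e0, Category.assoc, mul4, reassoc_of% e1, ← MonoidalCategory.whiskerLeft_comp_assoc,
      reassoc_of% e2, e3]
    unfold tensorμ
    simp only [MonoidalCategory.whiskerLeft_comp, Category.assoc, Iso.inv_hom_id_assoc,
      MonoidalCategory.whiskerLeft_hom_inv_assoc]
  have h3 : (β_ R P).hom ≫ P ◁ u ≫ μ[P] = u ▷ P ≫ μ[P] := hu
  unfold prodWith FM.ten
  rw [← tensorHom_comp_tensorHom, Category.assoc, Category.assoc, h1, ← h3, ← h2,
    ← MonoidalCategory.whiskerLeft_comp_assoc, IsMonHom.mul_hom (f := u),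
    tensorHom_def (μ[P]) ((u ⊗ₘ u) ≫ μ[P]), Category.assoc]

end prod

section phi

variable {T : Type u} [Category.{v} T] [Preadditive T] [MonoidalCategory T]
  [MonoidalPreadditive T] [SymmetricCategory T] {E : EvenSpheres T} {P : T} [MonObj P]
  {R : T} {p N : ℕ} (c : Pt E P p N)

/-- The functional in the degree `j`. -/
def phiAD (u : R ⟶ P) (j : ℤ) : (E.S j ⟶ P ⊗ R) →+ ZMod p :=
  (c.χ.toAddMonoidHom.comp (DirectSum.of (E.Gr P) j)).comp
    ((preadditiveYoneda.map (prodWith u)).app (Opposite.op (E.S j))).hom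

/-- The functional. -/
def phiA₀ (u : R ⟶ P) : MP E P R →+ ZMod p := MP.lift (phiAD c u)

theorem phiA₀_of (u : R ⟶ P) (j : ℤ) (x : E.S j ⟶ P ⊗ R) :
    phiA₀ c u (MP.of E P R j x) = c.χ (HRing.of E P j (x ≫ prodWith u)) := by
  exact MP.lift_of (phiAD c u) j x

theorem phiA₀_of_not (u : R ⟶ P) {j : ℤ} (hj : ¬ (N : ℤ) ∣ j) (x : E.S j ⟶ P ⊗ R) :
    phiA₀ c u (MP.of E P R j x) = 0 := by
  rw [phiA₀_of, c.χ_of j hj]

theorem phiA₀_smul (u : R ⟶ P) (a : HRing E P) (x : MP E P R) :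
    phiA₀ c u (a • x) = c.χ a * phiA₀ c u x := by
  induction a using DirectSum.induction_on with
  | zero => rw [zero_smul, map_zero, map_zero, zero_mul]
  | of i a =>
    induction x using MP.ind with
    | zero => rw [smul_zero, map_zero, mul_zero]
    | of j x =>
      change phiA₀ c u (HRing.of E P i a • MP.of E P R j x) =
        c.χ (HRing.of E P i a) * phiA₀ c u (MP.of E P R j x)
      rw [MP.smul_of (k := i + j) rfl, phiA₀_of, phiA₀_of, ← map_mul,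
        of_mul_of (p := i + j) rfl, ← gsmul_comp _ _ (isLinear_prodWith u)]
      rfl
    | add x y hx hy => rw [smul_add, map_add, map_add, hx, hy, mul_add]
  | add a b ha hb => rw [add_smul, map_add, map_add, ha, hb, add_mul]

theorem phiA₀_mem (u : R ⟶ P) {x : MP E P R}
    (hx : x ∈ c.I • (⊤ : Submodule (HRing E P) (MP E P R))) : phiA₀ c u x = 0 := by
  induction hx using Submodule.smul_induction_on' with
  | smul a ha m _ => rw [phiA₀_smul, c.mem_I.1 ha, zero_mul]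
  | add x _ y _ hx hy => rw [map_add, hx, hy, add_zero]

/-- The functional on `V_tot`. -/
def phiA (u : R ⟶ P) : Vtot c R →ₗ[ZMod p] ZMod p :=
  AddMonoidHom.toZModLinearMap p (Vtot.desc (phiA₀ c u) fun _ hx => phiA₀_mem c u hx)

@[simp] theorem phiA_mk (u : R ⟶ P) (x : MP E P R) :
    phiA c u (Vtot.mk c R x) = phiA₀ c u x := rfl

variable [MonObj R]

/-- the unit -/
theorem phiA₀_one (u : R ⟶ P) [IsMonHom u] :
    phiA₀ c u (MP.map E P η[R] (MP.of E P (𝟙_ T) 0 (E.zero.inv ≫ FM.unit P (𝟙_ T)))) = 1 := by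
  rw [MP.map_of, phiA₀_of, Category.assoc, Category.assoc, ← FM.unit_naturality_assoc,
    unit_prodWith, IsMonHom.one_hom]
  exact map_one c.χ

/-- the product -/
theorem phiA₀_mul (u : R ⟶ P) [IsMonHom u] (hu : Cen u) {i j k : ℤ} (h : i + j = k)
    (x : E.S i ⟶ P ⊗ R) (y : E.S j ⟶ P ⊗ R) :
    phiA₀ c u (MP.map E P μ[R] (MP.of E P (R ⊗ R) k (E.ext h x y ≫ FM.ten P R R))) =
      phiA₀ c u (MP.of E P R i x) * phiA₀ c u (MP.of E P R j y) := by
  rw [MP.map_of, phiA₀_of, phiA₀_of, phiA₀_of, Category.assoc, Category.assoc,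
    ten_prodWith_cen u hu, ← map_mul, of_mul_of h]
  unfold gmul
  rw [ext_comp, Category.assoc]

/-- the values on the classes which come from `R` -/
theorem phiA₀_unit (u : R ⟶ P) {j : ℤ} (x : E.S j ⟶ R) :
    phiA₀ c u (MP.map E P x (MP.of E P (E.S j) j (FM.unit P (E.S j)))) =
      c.χ (HRing.of E P j (x ≫ u)) := by
  rw [MP.map_of, phiA₀_of, ← FM.unit_naturality, Category.assoc, unit_prodWith]

theorem phiA_one (u : R ⟶ P) [IsMonHom u] :
    phiA c u (Vtot.map c η[R] (Vtot.mk c (𝟙_ T) (MP.one E P))) = 1 := phiA₀_one c u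

theorem phiA₀_cross (u : R ⟶ P) [IsMonHom u] (hu : Cen u) (x y : MP E P R) :
    phiA₀ c u (MP.map E P μ[R] (MP.cross E P R R x y)) = phiA₀ c u x * phiA₀ c u y := by
  induction x, y using MP.ind₂ with
  | zl y => simp only [map_zero, AddMonoidHom.zero_apply, zero_mul]
  | zr x => simp only [map_zero, mul_zero]
  | oo m a n b => rw [MP.cross_of (q := m + n) rfl, ← phiA₀_mul c u hu rfl a b]; rfl
  | al x x' y h h' =>
    simp only [_root_.map_add, AddMonoidHom.add_apply, h, h', add_mul]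
  | ar x y y' h h' => simp only [_root_.map_add, h, h', mul_add]

/-- the product -/
theorem phiA_cross (u : R ⟶ P) [IsMonHom u] (hu : Cen u) (x y : MP E P R) :
    phiA c u (Vtot.map c μ[R] (Vtot.mk c (R ⊗ R) (MP.cross E P R R x y))) =
      phiA c u (Vtot.mk c R x) * phiA c u (Vtot.mk c R y) := phiA₀_cross c u hu x y

/-- the values on the classes which come from `R` -/
theorem phiA_gen (u : R ⟶ P) {j : ℤ} (x : E.S j ⟶ R) :
    phiA c u (Vtot.map c x (Vtot.mk c (E.S j) (MP.gen E P j))) = c.χ (HRing.of E P j (x ≫ u)) :=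
  phiA₀_unit c u x

omit [MonObj R] in
/-- the functional is zero in the degrees which are not divisible by `N` -/
theorem phiA₀_prC (u : R ⟶ P) (x : MP E P R) :
    phiA₀ c u (prC N 0 (P ⊗ R) x : MP E P R) = phiA₀ c u x := by
  induction x using MP.ind with
  | zero => exact congrArg (phiA₀ c u) (map_zero (prC N 0 (P ⊗ R)))
  | of j x =>
    by_cases h : (N : ℤ) ∣ j
    · exact congrArg (phiA₀ c u) (prC_of_dvd (c := 0) (by rwa [sub_zero]) x)
    · rw [phiA₀_of_not c u h]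
      exact (congrArg (phiA₀ c u) (prC_of_not (c := 0) (by rwa [sub_zero]) x)).trans
        (map_zero (phiA₀ c u))
  | add x y hx hy =>
    have h1 : phiA₀ c u (prC N 0 (P ⊗ R) (x + y) : MP E P R) =
        phiA₀ c u ((prC N 0 (P ⊗ R) x : MP E P R) + (prC N 0 (P ⊗ R) y : MP E P R)) :=
      congrArg (phiA₀ c u) (map_add (prC N 0 (P ⊗ R)) x y)
    exact h1.trans ((map_add (phiA₀ c u) _ _).trans
      ((congrArg₂ (· + ·) hx hy).trans (map_add (phiA₀ c u) x y).symm))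

end phi

end Vale.Agent.P241.EX
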